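import Vale.Agent.P354z.O4

set_option maxSynthPendingDepth 3

open Set MeasureTheory Filter Topology

namespace Vale.Agent.P354a

open Vale.Agent.P354w Vale.Agent.P354x Vale.Agent.P354z PreHyp CoreHyp

variable {K : Coef} {G : P4 → P4 →L[ℝ] P4 →L[ℝ] ℝ} {Psi : P4 → P4} {V U : Set P4}
    {C R : ℝ} {cv cw cu : ℝ → ℝ} {t0 r : ℝ} {f : P3 → ℝ}

/-- the quotient of `xi` and the `v` component of the velocity -/
noncomputable def Fq (K : Coef) (Psi : P4 → P4) (z : P4) : ℝ :=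
  K.gF (Psi z) (fderiv ℝ Psi z e1) e1 / (fderiv ℝ Psi z e1).2.1

lemma contDiffAt_Fq (h : PreHyp K G Psi V U C R cv cw cu t0 r f) {z : P4} (hz : z ∈ V) :
    ContDiffAt ℝ 1 (Fq K Psi) z := by
  have hP := h.contDiffAt_P hz e1
  have p2 : ContDiffAt ℝ 1 (fun z => (fderiv ℝ Psi z e1).2.1) z :=
    contDiffAt_fst.comp z (contDiffAt_snd.comp z hP)
  exact (h.contDiffAt_gF hz e1 e1).div p2 (h.pos z hz).ne'

lemma fderiv_Fq (h : PreHyp K G Psi V U C R cv cw cu t0 r f) {z : P4} (hz : z ∈ V)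
    {Z : P4} (hZ : fderiv ℝ Psi z Z = e1) :
    fderiv ℝ (Fq K Psi) z Z =
      ((K.dgF (Psi z) e1 (fderiv ℝ Psi z e1) e1 + K.gF (Psi z) (Sd Psi z Z e1) e1) *
          (fderiv ℝ Psi z e1).2.1 -
        K.gF (Psi z) (fderiv ℝ Psi z e1) e1 * (Sd Psi z Z e1).2.1) /
        (fderiv ℝ Psi z e1).2.1 ^ 2 := by
  have hl : HasDerivAt (fun τ : ℝ => z + τ • Z) Z 0 := by
    simpa using ((hasDerivAt_id (0:ℝ)).smul_const Z).const_add z
  have hz0 : z + (0:ℝ) • Z = z := by simp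
  have hT : HasDerivAt (fun τ : ℝ => Fq K Psi (z + τ • Z)) (fderiv ℝ (Fq K Psi) z Z) 0 := by
    have h1 : HasFDerivAt (Fq K Psi) (fderiv ℝ (Fq K Psi) z) (z + (0:ℝ) • Z) := by
      rw [hz0]; exact ((contDiffAt_Fq h hz).differentiableAt (by norm_num)).hasFDerivAt
    exact h1.comp_hasDerivAt (0:ℝ) hl
  have hX : HasDerivAt (fun τ : ℝ => Psi (z + τ • Z)) (fderiv ℝ Psi z Z) 0 := by
    have h1 : HasFDerivAt Psi (fderiv ℝ Psi z) (z + (0:ℝ) • Z) := by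
      rw [hz0]; exact h.iso.hasFDerivAt hz
    exact h1.comp_hasDerivAt (0:ℝ) hl
  have hD : HasDerivAt (fun τ : ℝ => fderiv ℝ Psi (z + τ • Z)) (fderiv ℝ (fderiv ℝ Psi) z Z) 0 := by
    have h1 : HasFDerivAt (fderiv ℝ Psi) (fderiv ℝ (fderiv ℝ Psi) z) (z + (0:ℝ) • Z) := by
      rw [hz0]; exact h.iso.hasFDerivAt_fderiv hz
    exact h1.comp_hasDerivAt (0:ℝ) hl
  have hA : HasDerivAt (fun τ : ℝ => fderiv ℝ Psi (z + τ • Z) e1) (Sd Psi z Z e1) 0 := by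
    have := hD.clm_apply (hasDerivAt_const (0:ℝ) e1)
    simpa [Sd] using this
  have hK0 : K.DiffAt (Psi (z + (0:ℝ) • Z)) := by rw [hz0]; exact h.iso.diffK z hz
  have hG := Coef.hasDerivAt_gF K (X := fun τ : ℝ => Psi (z + τ • Z))
    (A := fun τ : ℝ => fderiv ℝ Psi (z + τ • Z) e1) (B := fun _ : ℝ => e1)
    hK0 hX hA (hasDerivAt_const _ _)
  have hb : HasDerivAt (fun τ : ℝ => (fderiv ℝ Psi (z + τ • Z) e1).2.1)
      (Sd Psi z Z e1).2.1 0 := hA.snd.fst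
  have hne : (fderiv ℝ Psi (z + (0:ℝ) • Z) e1).2.1 ≠ 0 := by rw [hz0]; exact (h.pos z hz).ne'
  have hR := hG.div hb hne
  have := hT.unique hR
  rw [this]
  have hgF0 : K.gF (Psi z) (fderiv ℝ Psi z e1) 0 = 0 := by
    simp only [Coef.gF, Prod.snd_zero, Prod.fst_zero, mul_zero, add_zero, Coef.h1, sub_self, Coef.h2]
  simp only [hz0, hZ, hgF0, add_zero]

/-- the pointwise estimate where the frame components are bounded -/
lemma pointwise_Fq (h : PreHyp K G Psi V U C R cv cw cu t0 r f) (hC : 1 ≤ C)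
    (hcu : ∀ u, cu u ≤ C) {L κ : ℝ}
    (hL0 : 0 ≤ L) (hκ : 1 ≤ κ) : ∃ D : ℝ, 0 ≤ D ∧ ∀ z ∈ V, ‖fderiv ℝ G z‖ ≤ L → QQ Psi z ≤ κ →
      |Fq K Psi z| ≤ D ∧
      ∀ Z, fderiv ℝ Psi z Z = e1 → |fderiv ℝ (Fq K Psi) z Z + (1/2) * dg K (Psi z)| ≤ D := by
  have hC0 : 0 < C := by linarith
  have hκ0 : 0 < κ := by linarith
  set M : ℝ := 9 * C ^ 3 * κ with hM
  set β : ℝ := 2 * C ^ 2 * κ with hβ
  set D1 : ℝ := 10 * C ^ 2 * (L * M ^ 2 + C * κ + κ) with hD1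
  set D2 : ℝ := 10 * C ^ 4 * (L * M * κ + C * κ + κ) with hD2
  have hM0 : 0 ≤ M := by positivity
  have hβ0 : 0 ≤ β := by positivity
  have hD10 : 0 ≤ D1 := by positivity
  have hD20 : 0 ≤ D2 := by positivity
  refine ⟨M * β + D1 * β + M * D2 * β ^ 2, by positivity, fun z hz hGL hQ => ?_⟩
  have hp := h.pt hz
  have hbp : 0 < (fderiv ℝ Psi z e1).2.1 := hp.pos
  have hap : 0 < (fderiv ℝ Psi z e1).2.2.1 := hp.sq_le.2.1
  have hab := hp.sq_le.2.2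
  simp only [PtHyp.PP] at hab
  unfold QQ at hQ
  have hxi : K.gF (Psi z) (fderiv ℝ Psi z e1) e1 = PtHyp.xi K Psi z := by
    rw [K.gF_symm, gF_e1]
  have hX : |K.gF (Psi z) (fderiv ℝ Psi z e1) e1|
      ≤ C * (|K.h1 (Psi z) (fderiv ℝ Psi z e1)| + |K.h2 (Psi z) (fderiv ℝ Psi z e1)|) := by
    rw [hxi]
    have t1 := aux_mul2 hp.bd.g11 (le_refl |K.h1 (Psi z) (fderiv ℝ Psi z e1)|)
    have t2 := aux_mul2 hp.bd.g12 (le_refl |K.h2 (Psi z) (fderiv ℝ Psi z e1)|)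
    refine (abs_add_le _ _).trans ?_
    rw [mul_add]
    exact add_le_add t1 t2
  have hXM : |K.gF (Psi z) (fderiv ℝ Psi z e1) e1| ≤ M := by
    have hZsq := hp.sq_norm_Z (h.Zf_spec hz)
    rw [← hxi] at hZsq
    exact (pe_bounds hC hκ hap hbp (by linarith only [hQ, hbp, hap]) (by linarith only [hQ, hbp, hap]) (by positivity) (pe_y hp.sq_le.1)
      hX (norm_nonneg _) hZsq).2.2.2.1
  -- the lower bound of the v component
  have hinv : 1 / (fderiv ℝ Psi z e1).2.1 ≤ β := by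
    rw [div_le_iff₀ hbp, hβ]
    calc 1 ≤ 2 * C ^ 2 * ((fderiv ℝ Psi z e1).2.2.1 * (fderiv ℝ Psi z e1).2.1) := hab
      _ ≤ 2 * C ^ 2 * (κ * (fderiv ℝ Psi z e1).2.1) := by gcongr; linarith only [hQ, hbp]
      _ = _ := by ring
  have hinv0 : 0 ≤ 1 / (fderiv ℝ Psi z e1).2.1 := by positivity
  constructor
  · rw [Fq, div_eq_mul_one_div, abs_mul, abs_of_nonneg hinv0]
    have : |K.gF (Psi z) (fderiv ℝ Psi z e1) e1| * (1 / (fderiv ℝ Psi z e1).2.1) ≤ M * β := by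
      gcongr
    have k1 : 0 ≤ D1 * β := by positivity
    have k2 : 0 ≤ M * D2 * β ^ 2 := by positivity
    linarith only [this, k1, k2]
  intro Z hZ
  have hZsq := hp.sq_norm_Z hZ
  rw [← hxi] at hZsq
  have hZM : ‖Z‖ ≤ M := (pe_bounds hC hκ hap hbp (by linarith only [hQ, hbp, hap]) (by linarith only [hQ, hbp, hap]) (by positivity)
    (pe_y hp.sq_le.1) hX (norm_nonneg _) hZsq).2.2.2.2
  obtain ⟨Nu, hNu⟩ := h.exists_pre hz (e3 K (Psi z))
  have hS := hp.Sv_Z hNu hZ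
  have hA := hp.xi_Z hZ
  simp only [PtHyp.PP] at hS hA
  rw [fderiv_Fq h hz hZ]
  have hcu0 := hp.bd.cu0
  have hcuC := hcu (Psi z).2.2.1
  have hZ0 := norm_nonneg Z
  have hG0 := norm_nonneg (fderiv ℝ G z)
  generalize K.dgF (Psi z) e1 (fderiv ℝ Psi z e1) e1 + K.gF (Psi z) (Sd Psi z Z e1) e1 = A at *
  generalize K.gF (Psi z) (fderiv ℝ Psi z e1) e1 = X at *
  generalize (Sd Psi z Z e1).2.1 = S at *
  have hA' : |A + 1 / 2 * (fderiv ℝ Psi z e1).2.1 * dg K (Psi z)| ≤ D1 := by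
    refine hA.trans ?_
    rw [hD1]
    have e1' : ‖fderiv ℝ G z‖ * ‖Z‖ ^ 2 ≤ L * M ^ 2 := by gcongr
    have e2' : cu (Psi z).2.2.1 * (fderiv ℝ Psi z e1).2.2.1 ≤ C * κ := by
      gcongr
      linarith only [hQ, hbp]
    gcongr 10 * C ^ 2 * ?_
    linarith only [hQ, e1', e2']
  have hS' : |S| ≤ D2 := by
    refine hS.trans ?_
    rw [hD2]
    have e1' : ‖fderiv ℝ G z‖ * ‖Z‖ * (fderiv ℝ Psi z e1).2.1 ≤ L * M * κ := by
      gcongr
      linarith only [hQ, hap]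
    have e2' : cu (Psi z).2.2.1 * ((fderiv ℝ Psi z e1).2.2.1 + (fderiv ℝ Psi z e1).2.1) ≤
        C * κ := by
      gcongr
    gcongr 10 * C ^ 4 * ?_
    linarith only [hQ, e1', e2']
  have e : (A * (fderiv ℝ Psi z e1).2.1 - X * S) / (fderiv ℝ Psi z e1).2.1 ^ 2 +
      1 / 2 * dg K (Psi z) = (A + 1 / 2 * (fderiv ℝ Psi z e1).2.1 * dg K (Psi z)) *
        (1 / (fderiv ℝ Psi z e1).2.1) - X * S * (1 / (fderiv ℝ Psi z e1).2.1) ^ 2 := by
    field_simp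
    ring
  rw [e]
  generalize 1 / (fderiv ℝ Psi z e1).2.1 = q at *
  refine (abs_sub _ _).trans ?_
  rw [abs_mul, abs_mul, abs_mul, abs_of_nonneg hinv0, abs_of_nonneg (pow_nonneg hinv0 2)]
  have k1 : |A + 1 / 2 * (fderiv ℝ Psi z e1).2.1 * dg K (Psi z)| * q ≤ D1 * β := by gcongr
  have k2 : |X| * |S| * q ^ 2 ≤ M * D2 * β ^ 2 := by gcongr
  have k3 : 0 ≤ M * β := by positivity
  linarith only [k1, k2, k3]

/-- the function on the slice is differentiable with the expected derivative -/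
lemma slice_diff (h : PreHyp K G Psi V U C R cv cw cu t0 r f) {v : ℝ} {y : P3} {z : P4}
    (hz : z ∈ V) (hzy : Psi z = ins v y) :
    ContDiffAt ℝ 1 (fun y => Fq K Psi (Phi Psi V (ins v y))) y ∧
    fderiv ℝ (fun y => Fq K Psi (Phi Psi V (ins v y))) y (1, 0, 0) =
      fderiv ℝ (Fq K Psi) z (Zf Psi V z) := by
  have hP : Phi Psi V (ins v y) = z := by rw [← hzy]; exact h.Phi_left hz
  have c1 : ContDiffAt ℝ 1 (Phi Psi V) (ins v y) := by rw [← hzy]; exact h.contDiffAt_Phi hz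
  have c2 : ContDiffAt ℝ 1 (Fq K Psi) (Phi Psi V (ins v y)) := by rw [hP]; exact contDiffAt_Fq h hz
  have c3 : ContDiffAt ℝ 1 (fun y : P3 => ins v y) y := (contDiff_insv v).contDiffAt
  have c4 : ContDiffAt ℝ 1 (fun y : P3 => Phi Psi V (ins v y)) y := c1.comp y c3
  refine ⟨ContDiffAt.comp (g := Fq K Psi) (f := fun y : P3 => Phi Psi V (ins v y)) y c2 c4, ?_⟩
  obtain ⟨L, hL, hL1⟩ := hasFDerivAt_insv v y
  have d1 : HasFDerivAt (Phi Psi V) (fderiv ℝ (Phi Psi V) (Psi z)) (ins v y) := by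
    rw [hzy]; exact (c1.differentiableAt (by norm_num)).hasFDerivAt
  have d2 : HasFDerivAt (Fq K Psi) (fderiv ℝ (Fq K Psi) z) (Phi Psi V (ins v y)) := by
    rw [hP]; exact ((contDiffAt_Fq h hz).differentiableAt (by norm_num)).hasFDerivAt
  have d3 := d2.comp y (d1.comp y hL)
  have d4 : fderiv ℝ (fun y => Fq K Psi (Phi Psi V (ins v y))) y =
      (fderiv ℝ (Fq K Psi) z).comp ((fderiv ℝ (Phi Psi V) (Psi z)).comp L) := d3.fderiv
  rw [d4, ContinuousLinearMap.comp_apply, ContinuousLinearMap.comp_apply, hL1]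
  rfl

end Vale.Agent.P354a
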