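import Vale.Agent.P354a.A1

set_option maxSynthPendingDepth 3

open Set MeasureTheory Filter Topology

namespace Vale.Agent.P354a

open Vale.Agent.P354w Vale.Agent.P354x Vale.Agent.P354z PreHyp CoreHyp

variable {K : Coef} {G : P4 → P4 →L[ℝ] P4 →L[ℝ] ℝ} {Psi : P4 → P4} {V U : Set P4}
    {C R : ℝ} {cv cw cu : ℝ → ℝ} {t0 r : ℝ} {f : P3 → ℝ}

lemma contDiff_tsupport {g : P3 → ℝ} (hg : ∀ y ∈ tsupport g, ContDiffAt ℝ 1 g y) :
    ContDiff ℝ 1 g := by
  rw [contDiff_iff_contDiffAt]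
  intro y
  by_cases hy : y ∈ tsupport g
  · exact hg y hy
  · have h1 : g =ᶠ[𝓝 y] fun _ => (0:ℝ) := notMem_tsupport_iff_eventuallyEq.mp hy
    exact contDiffAt_const.congr_of_eventuallyEq h1

/-- the integral of a derivative of a function with compact support -/
lemma integral_fderiv_zero {g : P3 → ℝ} (hg : ContDiff ℝ 1 g) (hgc : HasCompactSupport g) (e : P3) :
    Integrable (fun y => fderiv ℝ g y e) ∧ ∫ y, fderiv ℝ g y e = 0 := by
  have := haarP3
  have c1 : Continuous (fun y => fderiv ℝ g y e) :=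
    (hg.continuous_fderiv (by norm_num)).clm_apply continuous_const
  have i1 : Integrable (fun y => fderiv ℝ g y e) := by
    refine c1.integrable_of_hasCompactSupport ?_
    exact (hgc.fderiv (𝕜 := ℝ)).comp_left (g := fun L : P3 →L[ℝ] ℝ => L e) (by simp)
  have i2 : Integrable g := hg.continuous.integrable_of_hasCompactSupport hgc
  have h1 := integral_mul_fderiv_eq_neg_fderiv_mul_of_integrable (μ := (volume : Measure P3))
    (f := fun _ => (1:ℝ)) (g := g) (v := e) (by simp only [fderiv_fun_const, Pi.zero_apply, zero_apply, zero_mul, integrable_fun_zero]) (by simpa only [one_mul] using i1) (by simpa only [one_mul] using i2)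
    (fun x _ => by fun_prop) (fun x _ => (hg.differentiable (by norm_num)) x)
  refine ⟨i1, ?_⟩
  simpa only [one_mul, fderiv_fun_const, Pi.zero_apply, zero_apply, zero_mul, integral_zero, neg_zero] using h1

/-- **The averages of the `v` derivative are bounded**, first direction. -/
theorem avg1 (h : PreHyp K G Psi V U C R cv cw cu t0 r f) (hcu : ∀ u, cu u ≤ C) {L κ : ℝ}
    (hL : ∀ z ∈ DD t0 r f, ‖fderiv ℝ G z‖ ≤ L) (hκ : 1 ≤ κ) {O : Set P3} (hO : IsOpen O) {v0 : ℝ}
    (hin : ∀ y ∈ O, ∀ v ∈ Ico v0 0, ∃ z ∈ DD t0 r f, Psi z = ins v y ∧ QQ Psi z ≤ κ)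
    {φ : P3 → ℝ} (hφ : ContDiff ℝ 1 φ) (hφc : HasCompactSupport φ) (hφO : tsupport φ ⊆ O) :
    ∃ B : ℝ, ∀ v ∈ Ico v0 0, Integrable (fun y => φ y * dg K (ins v y)) ∧
      |∫ y, φ y * dg K (ins v y)| ≤ B := by
  have := haarP3
  have hC : 1 ≤ C := one_le_C h
  obtain ⟨D, hD0, hD⟩ := pointwise_Fq h hC hcu (L := |L|) (κ := κ) (abs_nonneg _) hκ
  have cφ' : Continuous (fun y => fderiv ℝ φ y (1, 0, 0)) :=
    (hφ.continuous_fderiv (by norm_num)).clm_apply continuous_const
  have iφ : Integrable φ := hφ.continuous.integrable_of_hasCompactSupport hφc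
  have iφ' : Integrable (fun y => fderiv ℝ φ y (1, 0, 0)) :=
    (integral_fderiv_zero hφ hφc _).1
  refine ⟨∫ y, (2 * D * |fderiv ℝ φ y (1, 0, 0)| + 2 * D * |φ y|), fun v hv => ?_⟩
  -- the integrand
  have hdc : ContinuousOn (fun y : P3 => dg K (ins v y)) O := by
    have hcins : Continuous (fun y : P3 => ins v y) := by unfold ins; fun_prop
    refine (continuousOn_dg h).comp hcins.continuousOn (fun y hy => ?_)
    obtain ⟨z, hz, hzy, _⟩ := hin y hy v hv
    show ins v y ∈ U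
    rw [← hzy]; exact h.maps (h.DD_sub hz)
  have hc1 : Continuous (fun y => φ y * dg K (ins v y)) := by
    refine ContinuousOn.continuous_of_tsupport_subset (s := O)
      (hφ.continuous.continuousOn.mul hdc) hO ?_
    exact (tsupport_mul_subset_left).trans hφO
  have hs1 : HasCompactSupport (fun y => φ y * dg K (ins v y)) := hφc.mul_right
  have i1 : Integrable (fun y => φ y * dg K (ins v y)) := hc1.integrable_of_hasCompactSupport hs1
  refine ⟨i1, ?_⟩
  -- the test function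
  set g : P3 → ℝ := fun y => φ y * Fq K Psi (Phi Psi V (ins v y)) with hg
  have hgs : tsupport g ⊆ tsupport φ := tsupport_mul_subset_left
  have hgd : ContDiff ℝ 1 g := by
    apply contDiff_tsupport
    intro y hy
    obtain ⟨z, hz, hzy, _⟩ := hin y (hφO (hgs hy)) v hv
    exact hφ.contDiffAt.mul (slice_diff h (h.DD_sub hz) hzy).1
  have hgc : HasCompactSupport g := hφc.mul_right
  obtain ⟨i2, e2⟩ := integral_fderiv_zero hgd hgc (1, 0, 0)
  have e3 : ∫ y, φ y * dg K (ins v y) =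
      ∫ y, (φ y * dg K (ins v y) + 2 * fderiv ℝ g y (1, 0, 0)) := by
    rw [integral_add i1 (i2.const_mul 2), integral_const_mul, e2]
    simp
  rw [e3, ← Real.norm_eq_abs]
  refine norm_integral_le_of_norm_le ((iφ'.abs.const_mul (2 * D)).add (iφ.abs.const_mul (2 * D))) ?_
  refine Filter.Eventually.of_forall fun y => ?_
  rw [Real.norm_eq_abs]
  by_cases hy : y ∈ tsupport φ
  · obtain ⟨z, hz, hzy, hQ⟩ := hin y (hφO hy) v hv
    have hzV := h.DD_sub hz
    have hP : Phi Psi V (ins v y) = z := by rw [← hzy]; exact h.Phi_left hzV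
    obtain ⟨k1, k2⟩ := slice_diff h hzV hzy
    obtain ⟨m1, m2⟩ := hD z hzV ((hL z hz).trans (le_abs_self _)) hQ
    have m3 := m2 _ (h.Zf_spec hzV)
    have d1 : HasFDerivAt g (φ y • fderiv ℝ (fun y => Fq K Psi (Phi Psi V (ins v y))) y +
        Fq K Psi (Phi Psi V (ins v y)) • fderiv ℝ φ y) y :=
      (hφ.differentiable (by norm_num) y).hasFDerivAt.mul
        (k1.differentiableAt (by norm_num)).hasFDerivAt
    rw [d1.fderiv, ContinuousLinearMap.add_apply, ContinuousLinearMap.smul_apply,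
      ContinuousLinearMap.smul_apply, k2, hP, ← hzy, smul_eq_mul, smul_eq_mul]
    generalize fderiv ℝ (Fq K Psi) z (Zf Psi V z) = q at *
    generalize Fq K Psi z = w at *
    generalize dg K (Psi z) = d at *
    generalize fderiv ℝ φ y (1, 0, 0) = φ' at *
    generalize φ y = p at *
    have e4 : p * d + 2 * (p * q + w * φ') = 2 * (p * (q + 1 / 2 * d)) + 2 * (w * φ') := by ring
    rw [e4]
    have n1 : |p * (q + 1 / 2 * d)| ≤ |p| * D := by rw [abs_mul]; gcongr
    have n2 : |w * φ'| ≤ D * |φ'| := by rw [abs_mul]; gcongr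
    rw [abs_le] at n1 n2 ⊢
    constructor <;> linarith only [n1.1, n2.1, n1.2, n2.2]
  · have h1 : φ =ᶠ[𝓝 y] fun _ => (0:ℝ) := notMem_tsupport_iff_eventuallyEq.mp hy
    have h2 : g =ᶠ[𝓝 y] fun _ => (0:ℝ) := by
      filter_upwards [h1] with x hx
      rw [hg]; simp only; rw [hx, zero_mul]
    have h3 : φ y = 0 := h1.eq_of_nhds
    rw [h2.fderiv_eq, h1.fderiv_eq, h3]
    simp

/-- the frame components are bounded when the derivatives of the metric are -/
lemma QQ_bdd (h : CoreHyp K G Psi V U C R cv cw cu t0 r f) {L : ℝ}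
    (hL : ∀ z ∈ DD t0 r f, ‖fderiv ℝ G z‖ ≤ L) :
    ∃ κ : ℝ, 1 ≤ κ ∧ ∀ z ∈ DD t0 r f, ‖z.2‖ ≤ r / 4 → QQ Psi z ≤ κ := by
  have hpre := h.toPreHyp
  have hC := one_le_C hpre
  have hC0 : 0 < C := by linarith
  have hr := h.r_pos
  obtain ⟨κ0, hκ0⟩ := exists_Q0 h
  set w := (W0 R cv cw cu).toReal with hw
  have hw0 : 0 ≤ w := ENNReal.toReal_nonneg
  have hW0 : W0 R cv cw cu = ENNReal.ofReal w := (ENNReal.ofReal_toReal (W0_ne_top hpre)).symm
  have hR0 : 0 ≤ R := by
    have h0 : ((t0, (0 : P3)) : P4) ∈ V := h.memV 0 (Metric.mem_ball_self hr) t0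
      ⟨le_refl _, h.t0f 0 (Metric.mem_ball_self hr)⟩
    exact (abs_nonneg _).trans (h.U_sub _ (h.maps h0)).1
  set M : ℝ := 100 * C ^ 5 * (|L| * (3 * R * C) + w) with hM
  have hM0 : 0 ≤ M := by positivity
  refine ⟨max 1 (κ0 * Real.exp M), le_max_left _ _, ?_⟩
  rintro ⟨t, x⟩ hz hx
  have hxr : x ∈ Metric.ball (0 : P3) r := hz.1
  have ht0 : t0 < t := hz.2.1
  have htf : t < f x := hz.2.2
  have hzV : ∀ s ∈ Icc t0 t, ((s, x) : P4) ∈ V := fun s hs =>
    h.memV x hxr s ⟨hs.1, lt_of_le_of_lt hs.2 htf⟩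
  -- the duration
  have hdur : 1 / C * (t - t0) ≤ 3 * R := by
    have hder : ∀ τ ∈ Icc t0 t, HasDerivAt (fun τ => (Psi (τ, x)).2.2.1 + (Psi (τ, x)).2.1)
        (QQ Psi (τ, x)) τ := by
      intro τ hτ
      have h1 := h.hasDerivAt_line (hzV τ hτ)
      have k1 : HasDerivAt (fun τ => (Psi (τ, x)).2.2.1) (fderiv ℝ Psi (τ, x) e1).2.2.1 τ :=
        h1.snd.snd.fst
      have k2 : HasDerivAt (fun τ => (Psi (τ, x)).2.1) (fderiv ℝ Psi (τ, x) e1).2.1 τ :=
        h1.snd.fst
      exact k1.add k2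
    have h2 := Convex.mul_sub_le_image_sub_of_le_deriv (convex_Icc t0 t)
      (f := fun τ => (Psi (τ, x)).2.2.1 + (Psi (τ, x)).2.1)
      (fun τ hτ => (hder τ hτ).continuousAt.continuousWithinAt)
      (fun τ hτ => (hder τ (interior_subset hτ)).differentiableAt.differentiableWithinAt)
      (C := 1 / C)
      (by
        intro τ hτ
        rw [interior_Icc] at hτ
        have hτ' : τ ∈ Icc t0 t := ⟨hτ.1.le, hτ.2.le⟩
        rw [(hder τ hτ').deriv]
        have hp := h.pt (hzV τ hτ')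
        have ha := hp.sq_le.2.1
        have hb : 0 < (PtHyp.PP Psi (τ, x)).2.1 := h.pos _ (hzV τ hτ')
        have hab := hp.sq_le.2.2
        unfold QQ
        show 1 / C ≤ (PtHyp.PP Psi (τ, x)).2.2.1 + (PtHyp.PP Psi (τ, x)).2.1
        generalize (PtHyp.PP Psi (τ, x)).2.2.1 = a at *
        generalize (PtHyp.PP Psi (τ, x)).2.1 = b at *
        apply abs_le_of_sq_le_sq' _ (by positivity) |>.2
        have e1' : (1 / C) ^ 2 = 1 / C ^ 2 := by rw [div_pow, one_pow]
        rw [e1', div_le_iff₀ (by positivity)]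
        have h4 : 4 * (a * b) ≤ (a + b) ^ 2 := by linarith only [sq_nonneg (a - b)]
        calc 1 ≤ 2 * C ^ 2 * (a * b) := hab
          _ ≤ C ^ 2 * (4 * (a * b)) := by
            have : 0 ≤ C ^ 2 * (a * b) := by positivity
            linarith only [hab]
          _ ≤ C ^ 2 * (a + b) ^ 2 := by gcongr
          _ = _ := by ring)
      t0 (left_mem_Icc.mpr ht0.le) t (right_mem_Icc.mpr ht0.le) ht0.le
    obtain ⟨_, a2, a3, a4, _⟩ := h.U_sub _ (h.maps (hzV t (right_mem_Icc.mpr ht0.le)))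
    obtain ⟨_, b2, b3, b4, _⟩ := h.U_sub _ (h.maps (hzV t0 (left_mem_Icc.mpr ht0.le)))
    rw [abs_le] at a4 b4
    refine h2.trans ?_
    show (Psi (t, x)).2.2.1 + (Psi (t, x)).2.1 - ((Psi (t0, x)).2.2.1 + (Psi (t0, x)).2.1) ≤ _
    linarith only [a3, a4, b2, b4]
  have hdur' : t - t0 ≤ 3 * R * C := by
    rw [one_div, inv_mul_le_iff₀ hC0] at hdur
    linarith only [hdur]
  have hint : ∫⁻ s in Icc t0 t, ‖fderiv ℝ G (s, x)‖ₑ ≤ ENNReal.ofReal (|L| * (3 * R * C)) := by
    rw [← setLIntegral_congr (Ioc_ae_eq_Icc (a := t0) (b := t) (μ := volume))]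
    calc ∫⁻ s in Ioc t0 t, ‖fderiv ℝ G (s, x)‖ₑ ≤ ∫⁻ _ in Ioc t0 t, ENNReal.ofReal |L| := by
          apply setLIntegral_mono' measurableSet_Ioc
          intro s hs
          rw [← ofReal_norm]
          apply ENNReal.ofReal_le_ofReal
          exact (hL (s, x) ⟨hxr, hs.1, lt_of_le_of_lt hs.2 htf⟩).trans (le_abs_self _)
      _ = ENNReal.ofReal (|L| * (t - t0)) := by
          rw [setLIntegral_const, Real.volume_Ioc, ENNReal.ofReal_mul (abs_nonneg _)]
      _ ≤ _ := by
          apply ENNReal.ofReal_le_ofReal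
          gcongr
  have h3 := seg_QQ hpre hxr (le_refl t0) ht0.le htf hM0 (by
    rw [hM, ENNReal.ofReal_mul (p := 100 * C ^ 5) (by positivity),
      ENNReal.ofReal_add (p := |L| * (3 * R * C)) (by positivity) hw0, hW0]
    gcongr)
  refine h3.trans (le_trans ?_ (le_max_right _ _))
  exact mul_le_mul_of_nonneg_right (hκ0 x hx) (Real.exp_pos _).le

end Vale.Agent.P354a
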