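import Vale.Agent.P354a.A2
import Vale.Agent.P354x.Dir3

set_option maxSynthPendingDepth 3

open Set MeasureTheory Filter Topology

namespace Vale.Agent.P354a

open Vale.Agent.P354w Vale.Agent.P354x Vale.Agent.P354z PreHyp CoreHyp

variable {K K' : Coef} {G : P4 → P4 →L[ℝ] P4 →L[ℝ] ℝ} {Psi : P4 → P4} {V U : Set P4}
    {C R : ℝ} {cv cw cu : ℝ → ℝ} {t0 r : ℝ} {f : P3 → ℝ} {T : P4 ≃L[ℝ] P4}

/-- The averages in another direction. -/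
theorem avg_tr (h : CoreHyp K G Psi V U C R cv cw cu t0 r f) (hT : Tr K K' T)
    (hcv : ∫⁻ v in Ico (-(2 * R)) 0, ENNReal.ofReal (cv v) ≠ ⊤)
    (hcw : ∫⁻ v in Ico (-(2 * R)) 0, ENNReal.ofReal (cw v) ≠ ⊤)
    (hcu' : ∫⁻ u in Icc (-(2 * R)) (2 * R), ENNReal.ofReal (cu u) ≠ ⊤)
    (hcu : ∀ u, cu u ≤ C) {τ : P3 ≃L[ℝ] P3}
    (hτ : ∀ v y, ins v (τ y) = T (ins v y)) (hτm : MeasurePreserving (τ : P3 → P3) volume volume)
    {dK : P4 → ℝ} (hd : ∀ x ∈ U, dg K' (T x) = dK x) {L κ : ℝ}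
    (hL : ∀ z ∈ DD t0 r f, ‖fderiv ℝ G z‖ ≤ L) (hκ : 1 ≤ κ) {O : Set P3} (hO : IsOpen O) {v0 : ℝ}
    (hin : ∀ y ∈ O, ∀ v ∈ Ico v0 0, ∃ z ∈ DD t0 r f, Psi z = ins v y ∧ QQ Psi z ≤ κ)
    {φ : P3 → ℝ} (hφ : ContDiff ℝ 1 φ) (hφc : HasCompactSupport φ) (hφO : tsupport φ ⊆ O) :
    ∃ B : ℝ, ∀ v ∈ Ico v0 0, Integrable (fun y => φ y * dK (ins v y)) ∧
      |∫ y, φ y * dK (ins v y)| ≤ B := by
  have h' := h.tr hT hcv hcw hcu'
  have hτemb : MeasurableEmbedding (τ : P3 → P3) := τ.toHomeomorph.measurableEmbedding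
  have hfd : ∀ z ∈ V, fderiv ℝ (fun z => T (Psi z)) z = (T : P4 →L[ℝ] P4).comp (fderiv ℝ Psi z) := by
    intro z hz
    have h1 : HasFDerivAt Psi (fderiv ℝ Psi z) z :=
      ((h.iso.contDiffAt hz).differentiableAt (by norm_num)).hasFDerivAt
    exact (T.hasFDerivAt.comp z h1).fderiv
  have hQ : ∀ z ∈ V, QQ (fun z => T (Psi z)) z = QQ Psi z := by
    intro z hz
    unfold QQ
    rw [hfd z hz]
    show (T (fderiv ℝ Psi z e1)).2.2.1 + (T (fderiv ℝ Psi z e1)).2.1 = _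
    rw [hT.u, hT.v]
  have hts : tsupport (fun y => φ (τ.symm y)) = τ.symm ⁻¹' tsupport φ :=
    tsupport_comp_eq_preimage φ τ.symm.toHomeomorph
  obtain ⟨B, hB⟩ := avg1 h'.toPreHyp (fun u => by have := hcu u; linarith only [this]) hL hκ
    (O := τ.symm ⁻¹' O) (hO.preimage τ.symm.continuous) (v0 := v0)
    (fun y hy v hv => by
      obtain ⟨z, hz, hzy, hzq⟩ := hin _ hy v hv
      refine ⟨z, hz, ?_, ?_⟩
      · rw [hzy, ← hτ]; simp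
      · rw [hQ z (h.DD_sub hz)]; exact hzq)
    (φ := fun y => φ (τ.symm y)) (hφ.comp τ.symm.contDiff)
    (hφc.comp_homeomorph τ.symm.toHomeomorph)
    (by rw [hts]; exact preimage_mono hφO)
  refine ⟨B, fun v hv => ?_⟩
  obtain ⟨k1, k2⟩ := hB v hv
  have e : (fun y => φ y * dK (ins v y)) =
      fun y => (fun y => φ (τ.symm y) * dg K' (ins v y)) (τ y) := by
    funext y
    simp only [ContinuousLinearEquiv.symm_apply_apply]
    by_cases hy : φ y = 0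
    · rw [hy, zero_mul, zero_mul]
    · have hyO : y ∈ O := hφO (subset_tsupport φ hy)
      obtain ⟨z, hz, hzy, _⟩ := hin y hyO v hv
      have hU : ins v y ∈ U := by rw [← hzy]; exact h.maps (h.DD_sub hz)
      rw [hτ, hd _ hU]
  rw [e]
  refine ⟨(hτm.integrable_comp_emb hτemb).2 k1, ?_⟩
  have e2 := hτm.integral_comp hτemb (fun y => φ (τ.symm y) * dg K' (ins v y))
  refine le_trans (le_of_eq ?_) k2
  exact congrArg abs e2

/-- **The averages of the `v` derivatives of the metric are bounded.** -/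
theorem avg3 (h : CoreHyp K G Psi V U C R cv cw cu t0 r f)
    (hcv : ∫⁻ v in Ico (-(2 * R)) 0, ENNReal.ofReal (cv v) ≠ ⊤)
    (hcw : ∫⁻ v in Ico (-(2 * R)) 0, ENNReal.ofReal (cw v) ≠ ⊤)
    (hcu' : ∫⁻ u in Icc (-(2 * R)) (2 * R), ENNReal.ofReal (cu u) ≠ ⊤)
    (hcu : ∀ u, cu u ≤ C) {L : ℝ} (hL : ∀ z ∈ DD t0 r f, ‖fderiv ℝ G z‖ ≤ L) {O : Set P3}
    (hO : IsOpen O) {v0 : ℝ}
    (hin : ∀ y ∈ O, ∀ v ∈ Ico v0 0, ∃ z ∈ DD t0 r f, Psi z = ins v y ∧ ‖z.2‖ ≤ r / 4)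
    {φ : P3 → ℝ} (hφ : ContDiff ℝ 1 φ) (hφc : HasCompactSupport φ) (hφO : tsupport φ ⊆ O) :
    ∃ B : ℝ, ∀ v ∈ Ico v0 0,
      |∫ y, φ y * fderiv ℝ K.g11 (ins v y) (e4 K (ins v y))| ≤ B ∧
      |∫ y, φ y * fderiv ℝ K.g12 (ins v y) (e4 K (ins v y))| ≤ B ∧
      |∫ y, φ y * fderiv ℝ K.g22 (ins v y) (e4 K (ins v y))| ≤ B := by
  have hKd : ∀ x ∈ U, K.DiffAt x := fun x hx => SmoothOn.diffAt h.smoothK h.openU hx
  obtain ⟨κ, hκ, hQ⟩ := QQ_bdd h hL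
  have hin' : ∀ y ∈ O, ∀ v ∈ Ico v0 0, ∃ z ∈ DD t0 r f, Psi z = ins v y ∧ QQ Psi z ≤ κ := by
    intro y hy v hv
    obtain ⟨z, hz, hzy, hzn⟩ := hin y hy v hv
    exact ⟨z, hz, hzy, hQ z hz hzn⟩
  obtain ⟨B1, hB1⟩ := avg1 h.toPreHyp hcu hL hκ hO hin' hφ hφc hφO
  obtain ⟨B2, hB2⟩ := avg_tr h (tr_sw K) hcv hcw hcu' hcu (τ := tw) (fun v y => rfl) mp_tw
    (dK := fun x => fderiv ℝ K.g22 x (e4 K x))
    (fun x hx => by
      show fderiv ℝ (fun y => K.g22 (Tw.symm y)) (Tw x) (e4 K.sw (Tw x)) = _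
      rw [fderiv_T (hKd x hx).g22, sw_e4]) hL hκ hO hin' hφ hφc hφO
  obtain ⟨B3, hB3⟩ := avg_tr h (tr_sh K) hcv hcw hcu' hcu (τ := ts) (fun v y => rfl) mp_ts
    (dK := fun x => fderiv ℝ K.g11 x (e4 K x) + 2 * fderiv ℝ K.g12 x (e4 K x) +
      fderiv ℝ K.g22 x (e4 K x))
    (fun x hx => by
      show fderiv ℝ (fun y => K.g11 (Ts.symm y) +
          2 * K.g12 (Ts.symm y) + K.g22 (Ts.symm y)) (Ts x) (e4 K.sh (Ts x)) = _
      rw [fT_add3 (hKd x hx).g11 (hKd x hx).g12 (hKd x hx).g22, sh_e4]) hL hκ hO hin' hφ hφc hφO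
  refine ⟨|B1| + |B2| + |B3|, fun v hv => ?_⟩
  obtain ⟨i1, k1⟩ := hB1 v hv
  obtain ⟨i2, k2⟩ := hB2 v hv
  obtain ⟨i3, k3⟩ := hB3 v hv
  have a1 := le_abs_self B1
  have a2 := le_abs_self B2
  have a3 := le_abs_self B3
  have b1 := abs_nonneg B1
  have b2 := abs_nonneg B2
  have b3 := abs_nonneg B3
  have k1' : |∫ y, φ y * fderiv ℝ K.g11 (ins v y) (e4 K (ins v y))| ≤ B1 := k1
  refine ⟨by linarith only [a1, b2, b3, k1'], ?_, by linarith only [k2, a2, b1, b3]⟩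
  have e : ∫ y, φ y * fderiv ℝ K.g12 (ins v y) (e4 K (ins v y)) =
      1 / 2 * ((∫ y, φ y * (fderiv ℝ K.g11 (ins v y) (e4 K (ins v y)) +
        2 * fderiv ℝ K.g12 (ins v y) (e4 K (ins v y)) +
        fderiv ℝ K.g22 (ins v y) (e4 K (ins v y)))) -
        (∫ y, φ y * fderiv ℝ K.g11 (ins v y) (e4 K (ins v y))) -
        ∫ y, φ y * fderiv ℝ K.g22 (ins v y) (e4 K (ins v y))) := by
    have i1' : Integrable (fun y => φ y * fderiv ℝ K.g11 (ins v y) (e4 K (ins v y))) := i1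
    have i4 : Integrable (fun y => φ y * (fderiv ℝ K.g11 (ins v y) (e4 K (ins v y)) +
        2 * fderiv ℝ K.g12 (ins v y) (e4 K (ins v y)) +
        fderiv ℝ K.g22 (ins v y) (e4 K (ins v y))) -
        φ y * fderiv ℝ K.g11 (ins v y) (e4 K (ins v y))) := i3.sub i1'
    rw [← integral_sub i3 i1', ← integral_sub i4 i2, ← integral_const_mul]
    refine integral_congr_ae (Filter.Eventually.of_forall fun y => ?_)
    simp only
    ring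
  rw [e, abs_le]
  rw [abs_le] at k1' k2 k3
  constructor <;> linarith only [a1, a2, a3, b1, k1'.2, k2.1, k2.2, k3.1, k3.2, k1'.1]

end Vale.Agent.P354a
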