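import Vale.Agent.P354w.Iso

set_option maxSynthPendingDepth 3

open Set MeasureTheory Filter Topology

namespace Vale.Agent.P354a

/-- An essentially bounded continuous function on an open set is bounded. -/
lemma bdd_of_memLp {E F : Type*} [NormedAddCommGroup E] [MeasureSpace E] [BorelSpace E]
    [(volume : Measure E).IsOpenPosMeasure] [NormedAddCommGroup F]
    {g : E → F} {D : Set E} (hD : IsOpen D) (hg : ContinuousOn g D)
    (hm : MemLp g ⊤ (volume.restrict D)) : ∃ L : ℝ, ∀ z ∈ D, ‖g z‖ ≤ L := by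
  have h1 : eLpNormEssSup g (volume.restrict D) < ⊤ := by
    have := hm.2
    rwa [eLpNorm_exponent_top] at this
  obtain ⟨L, hL⟩ : ∃ L : ℝ, ENNReal.ofReal L = eLpNormEssSup g (volume.restrict D) :=
    ⟨_, ENNReal.ofReal_toReal h1.ne⟩
  refine ⟨|L|, ?_⟩
  have h2 : ∀ᵐ z ∂(volume.restrict D), ‖g z‖ₑ ≤ eLpNormEssSup g (volume.restrict D) :=
    ae_le_eLpNormEssSup
  rw [ae_restrict_iff' hD.measurableSet] at h2
  set W : Set E := D ∩ (fun z => ‖g z‖) ⁻¹' Ioi |L| with hW
  have hWo : IsOpen W := hg.norm.isOpen_inter_preimage hD isOpen_Ioi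
  have hW0 : volume W = 0 := by
    rw [measure_eq_zero_iff_ae_notMem]
    filter_upwards [h2] with z hz hzW
    have h3 := hz hzW.1
    rw [← hL, ← ofReal_norm] at h3
    have h4 : |L| < ‖g z‖ := hzW.2
    have h5 : ENNReal.ofReal ‖g z‖ ≤ ENNReal.ofReal |L| :=
      h3.trans (ENNReal.ofReal_le_ofReal (le_abs_self _))
    rw [ENNReal.ofReal_le_ofReal_iff (abs_nonneg _)] at h5
    linarith
  have hWe : W = ∅ := hWo.measure_eq_zero_iff volume |>.1 hW0
  intro z hz
  by_contra hc
  push Not at hc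
  have : z ∈ W := ⟨hz, hc⟩
  rw [hWe] at this
  exact this

end Vale.Agent.P354a
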